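import Mathlib.Logic.Basic

/-
# P032: how to weaken the hypothesis `two` of the frame `WT`

Working notes only, no theorem of its own here (see also `P032/H979/LockNotes`).

`P032.CommonColours` says: the frame `WT U T` (fields `irr`, `two`) is impossible; `two` forbids three
common colours for ALL pairs of points of order > 3 at distance one.  By `R2/H333/WS` (`EW.wt`) this
follows from
* `stop`: no two-pair point z has exact ab-arcs which end at a point of order > 3 with three of its
  colours, and
* `hh`: two harmless points at distance one have at most two common colours.
`EW.two` (a contact of a two-pair point has at most two of its colours) uses only `stop`, not `hh`.

## Aim

Replace `two` by its part for a two-pair point x (`DPt T x a b c d`), so that the exceptional pairs of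
the final theorem are of one kind: x is a two-pair point, x' is a limit of exact ab-arcs of x, and
three colours are common.  Outside of the certificates this needs:
* the last step is free: if there is no two-pair point, all points of order > 3 are harmless, and that
  world is empty by the starting files (`S5/H358/NoSpec`: `Irr.hC`, `Irr.noStar`; used in
  `R2/H137/HarmW`, `Irr.good_world`).  There `hh` is not assumed.
* only 42 modules of the closure mention `WT`.  Places which use `two`, `no_three` or `not_eq` for a
  pair of points neither of which is known to be a two-pair point (y a contact of the centre z, p or w
  a further point at distance one from y):
  `R2/H492/Face` (the general lemma with two positions), `R2/H492/Fields` (the clause family `two`: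
  two adjacent special points of one ring), `R2/H492/FieldY`, `R2/H609/Types` (one use of `not_eq`),
  `R2/H609/W2` (lines near 102, 219, 376, 421, 688, 1075, 1182), `R2/H609/W2E` (near 226, 449, 492),
  `R2/H939/HW2` (near 223, 346), `R2/H939/W2Tri` (near 187), `R2/H659/FinW2` and `R2/H659/Top4`
  (`Net3.com4_of`, needed only near two-pair points).
  In the ring systems the clause family `two` concerns two special points of the circle of z at
  distance one from each other, that is triangles of points of order > 3; if such triangles are
  excluded without `hh` (`WT.f_notri`), the certificates S1a, S1b, R2A, R2C, S2m stay as they are.

## Harmless pairs with three common colours

z harmless with broken pair A, x harmless with broken pair B, |x - z| = 1, C = T z minus A,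
D = T x minus B.  By `Harm.unit_pair` (`S5/H827/Edge`): if C is contained in T x then B = C or
(C = D and B is disjoint from T z; then only C is common).  So three common colours leave
* (i) T x = T z, B = C, D = A: exact A-arcs of z on both sides of x, exact B-arcs of x on both sides
  of z; the colours of A do not occur on the circle of x except at z and 2x - z, those of B not on the
  circle of z except at x and 2z - x; near the two common neighbours only the two colours outside T z
  occur, in a full neighbourhood;
* (ii) B = C, T x = C u {a, e} with a in A, e outside T z: every point of the circle of z near x has
  the colour e, hence (`partner_line`) on the circle of x the colour e occurs only at 2x - z;
* (iii) A u {d} = B u {n} is the set of common colours, with one colour of C outside T x and one colour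
  of D outside T z (A = B and d = n, or A and B share exactly one colour).
None of the three is excluded by an argument near z and x alone; (i) and (ii) look accessible to the ring
systems with one ring for z and one for x (letters of a harmless ring: exact A, or a letter with one of
the two colours outside T z).

## The mirror image

`R2/H137/Mir` transports `Irr`, `MinF`, `WT`, `DPt` under complex conjugation.  Every root whose
hypotheses are not symmetric can be halved in this way (it reduced the root S2n from 18 start words of
z to 10 and made the clauses about the two places beside the contact units).
-/
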